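import Vale.Agent.P318.S.Struct
import Vale.Agent.P318.S.Read

/-!
# Combination of the tests (block S4-gap)

`vRead`, `vRead2`: violation probabilities of tests which consist of one READ or two READs;
`idRead`, `idRead2`: the same with every READ replaced by the value it should return on a codeword.
-/

namespace Vale.Agent.P318.H767

open Finset
open scoped BigOperators
open Vale.Agent.P318.S

section

variable {F Y ι ρ : Type*} [Field F] [Fintype F] [DecidableEq F] [CharP F 2]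
  [AddCommGroup Y] [Module F Y] [Fintype Y] [DecidableEq Y] [Fintype ι] [Nonempty ι]
  [Fintype ρ] [DecidableEq ρ]

/-- Violation probability of the test READ at `yv ω` with vector `cst ω` plus `t ω` is zero. -/
noncomputable def vRead (D : ℕ) (r : ι → Y) (σ : Y → (ρ → F) → ZMod 2) {Ω : Type*} [Fintype Ω]
    (yv : Ω → Y) (cst : Ω → ρ → F) (t : Ω → ZMod 2) : ℝ :=
  𝔼 ω : Ω, 𝔼 x : (Fin 2 → ι) × (Fin 2 → Fin D → ρ → F) × (ρ → F),
    ind (rdSum σ r (yv ω) (cst ω) x.1 x.2.1 x.2.2 + t ω)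

/-- The ideal violation probability of a READ test. -/
noncomputable def idRead (φ : F →+ ZMod 2) (s : Y → ρ → F) {Ω : Type*} [Fintype Ω]
    (yv : Ω → Y) (cst : Ω → ρ → F) (t : Ω → ZMod 2) : ℝ :=
  𝔼 ω : Ω, ind (φ (∑ j, cst ω j * s (yv ω) j) + t ω)

/-- Violation probability of a test with two independent READs. -/
noncomputable def vRead2 (D : ℕ) (r : ι → Y) (σ : Y → (ρ → F) → ZMod 2) {Ω : Type*} [Fintype Ω]
    (yv yv' : Ω → Y) (cst cst' : Ω → ρ → F) (t : Ω → ZMod 2) : ℝ :=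
  𝔼 ω : Ω, 𝔼 x : (Fin 2 → ι) × (Fin 2 → Fin D → ρ → F) × (ρ → F),
    𝔼 x' : (Fin 2 → ι) × (Fin 2 → Fin D → ρ → F) × (ρ → F),
    ind (rdSum σ r (yv ω) (cst ω) x.1 x.2.1 x.2.2 +
      rdSum σ r (yv' ω) (cst' ω) x'.1 x'.2.1 x'.2.2 + t ω)

/-- The ideal violation probability of a test with two READs. -/
noncomputable def idRead2 (φ : F →+ ZMod 2) (s : Y → ρ → F) {Ω : Type*} [Fintype Ω]
    (yv yv' : Ω → Y) (cst cst' : Ω → ρ → F) (t : Ω → ZMod 2) : ℝ :=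
  𝔼 ω : Ω, ind (φ (∑ j, cst ω j * s (yv ω) j) + φ (∑ j, cst' ω j * s (yv' ω) j) + t ω)

theorem expect_three {D : ℕ} (f : (Fin 2 → ι) → (Fin 2 → Fin D → ρ → F) → (ρ → F) → ℝ) :
    (𝔼 i : Fin 2 → ι, 𝔼 C : Fin 2 → Fin D → ρ → F, 𝔼 c : ρ → F, f i C c) =
      𝔼 x : (Fin 2 → ι) × (Fin 2 → Fin D → ρ → F) × (ρ → F), f x.1 x.2.1 x.2.2 := by
  rw [← univ_product_univ, expect_product]
  refine expect_congr rfl fun i _ => ?_
  rw [← univ_product_univ, expect_product]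

theorem vRead_sub_le (φ : F →+ ZMod 2) {q D : ℕ} (hq : Fintype.card F = q)
    (r : ι → Y) (σ : Y → (ρ → F) → ZMod 2) (b : Y → ZMod 2) (s : Y → ρ → F) (I : Finset ι)
    (hD : D + 2 ≤ q) (hI : ∀ i ∈ I, ∀ y, Low (q - 2 - D) fun u : F => s (y + u • r i))
    (hbI : ∀ i ∈ I, ∀ y, ∑ u : F, b (y + u • r i) = 0)
    {Ω : Type*} [Fintype Ω] [Nonempty Ω] (yv : Ω → Y)
    (hyv : ∀ g : Y → ℝ, 𝔼 ω, g (yv ω) = 𝔼 y, g y)
    (cst : Ω → ρ → F) (t : Ω → ZMod 2) {η κ : ℝ} (hη : fdist σ (word φ b s) ≤ η)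
    (hκ : (1 - κ) * Fintype.card ι ≤ #I) :
    idRead φ s yv cst t - (2 * (q - 1) * η + 2 * κ) ≤ vRead D r σ yv cst t := by
  have h := read_viol φ hq r σ b s I hD hI hbI yv hyv cst t hη hκ
  have h2 := (abs_le.1 h).1
  simp_rw [expect_three] at h2
  unfold vRead idRead
  linarith

theorem vRead2_sub_le (φ : F →+ ZMod 2) {q D : ℕ} (hq : Fintype.card F = q)
    (r : ι → Y) (σ : Y → (ρ → F) → ZMod 2) (b : Y → ZMod 2) (s : Y → ρ → F) (I : Finset ι)
    (hD : D + 2 ≤ q) (hI : ∀ i ∈ I, ∀ y, Low (q - 2 - D) fun u : F => s (y + u • r i))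
    (hbI : ∀ i ∈ I, ∀ y, ∑ u : F, b (y + u • r i) = 0)
    {Ω : Type*} [Fintype Ω] [Nonempty Ω] (yv yv' : Ω → Y)
    (hyv : ∀ g : Y → ℝ, 𝔼 ω, g (yv ω) = 𝔼 y, g y)
    (hyv' : ∀ g : Y → ℝ, 𝔼 ω, g (yv' ω) = 𝔼 y, g y)
    (cst cst' : Ω → ρ → F) (t : Ω → ZMod 2) {η κ : ℝ} (hη : fdist σ (word φ b s) ≤ η)
    (hκ : (1 - κ) * Fintype.card ι ≤ #I) :
    idRead2 φ s yv yv' cst cst' t - 2 * (2 * (q - 1) * η + 2 * κ) ≤
      vRead2 D r σ yv yv' cst cst' t := by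
  -- first replace the READ at `yv`
  have h1 := read_viol φ hq r σ b s I hD hI hbI
    (Ω := Ω × (Fin 2 → ι) × (Fin 2 → Fin D → ρ → F) × (ρ → F)) (fun w => yv w.1)
    (fun g => by
      rw [← hyv g, ← univ_product_univ, expect_product]
      refine expect_congr rfl fun ω _ => ?_
      exact Fintype.expect_const (g (yv ω)))
    (fun w => cst w.1)
    (fun w => rdSum σ r (yv' w.1) (cst' w.1) w.2.1 w.2.2.1 w.2.2.2 + t w.1) hη hκ
  have h2 := read_viol φ hq r σ b s I hD hI hbI yv' hyv' cst'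
    (fun ω => φ (∑ j, cst ω j * s (yv ω) j) + t ω) hη hκ
  have e1 : (𝔼 w : Ω × (Fin 2 → ι) × (Fin 2 → Fin D → ρ → F) × (ρ → F),
      𝔼 i : Fin 2 → ι, 𝔼 C : Fin 2 → Fin D → ρ → F, 𝔼 c : ρ → F,
        ind (rdSum σ r (yv w.1) (cst w.1) i C c +
          (rdSum σ r (yv' w.1) (cst' w.1) w.2.1 w.2.2.1 w.2.2.2 + t w.1))) =
      vRead2 D r σ yv yv' cst cst' t := by
    unfold vRead2
    rw [← univ_product_univ, expect_product]
    refine expect_congr rfl fun ω _ => ?_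
    simp_rw [expect_three, ← add_assoc]
    exact expect_comm _ _ _
  have e2 : (𝔼 w : Ω × (Fin 2 → ι) × (Fin 2 → Fin D → ρ → F) × (ρ → F),
      ind (φ (∑ j, cst w.1 j * s (yv w.1) j) +
          (rdSum σ r (yv' w.1) (cst' w.1) w.2.1 w.2.2.1 w.2.2.2 + t w.1))) =
      𝔼 ω : Ω, 𝔼 i : Fin 2 → ι, 𝔼 C : Fin 2 → Fin D → ρ → F, 𝔼 c : ρ → F,
        ind (rdSum σ r (yv' ω) (cst' ω) i C c +
          (φ (∑ j, cst ω j * s (yv ω) j) + t ω)) := by
    rw [← univ_product_univ, expect_product]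
    refine expect_congr rfl fun ω _ => ?_
    simp_rw [expect_three]
    refine expect_congr rfl fun x _ => ?_
    congr 1
    ring
  have e3 : (𝔼 ω : Ω, ind (φ (∑ j, cst' ω j * s (yv' ω) j) +
      (φ (∑ j, cst ω j * s (yv ω) j) + t ω))) = idRead2 φ s yv yv' cst cst' t := by
    unfold idRead2
    refine expect_congr rfl fun ω _ => ?_
    congr 1
    ring
  rw [e1, e2] at h1
  rw [e3] at h2
  have h1' := (abs_le.1 h1).1
  have h2' := (abs_le.1 h2).1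
  linarith

theorem ind_nonneg' (a : ZMod 2) : 0 ≤ ind a := by
  unfold ind; split_ifs <;> norm_num

theorem ind_le_one' (a : ZMod 2) : ind a ≤ 1 := by
  unfold ind; split_ifs <;> norm_num

theorem vRead_nonneg {D : ℕ} (r : ι → Y) (σ : Y → (ρ → F) → ZMod 2) {Ω : Type*} [Fintype Ω]
    (yv : Ω → Y) (cst : Ω → ρ → F) (t : Ω → ZMod 2) : 0 ≤ vRead D r σ yv cst t := by
  unfold vRead
  exact expect_nonneg fun _ _ => expect_nonneg fun _ _ => ind_nonneg' _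

theorem vRead2_nonneg {D : ℕ} (r : ι → Y) (σ : Y → (ρ → F) → ZMod 2) {Ω : Type*} [Fintype Ω]
    (yv yv' : Ω → Y) (cst cst' : Ω → ρ → F) (t : Ω → ZMod 2) :
    0 ≤ vRead2 D r σ yv yv' cst cst' t := by
  unfold vRead2
  exact expect_nonneg fun _ _ => expect_nonneg fun _ _ => expect_nonneg fun _ _ => ind_nonneg' _

theorem eps_nonneg' {D : ℕ} (r : ι → Y) (σ : Y → (ρ → F) → ZMod 2) : 0 ≤ eps F D r σ := by
  unfold eps epsDir epsAt
  exact expect_nonneg fun _ _ => expect_nonneg fun _ _ => expect_nonneg fun _ _ => ind_nonneg' _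

/-- **Gap.**  Either the curve test fails with probability at least `1 / (160 q ^ 2)`, or there is
a codeword such that the violation of every READ test is at least the ideal one minus
`(6 + 8 q) ε` (twice that for tests with two READs). -/
theorem ltc_reads (φ : F →+ ZMod 2) (hφ : φ ≠ 0) {q D : ℕ} (hq : Fintype.card F = q)
    (hD : q ≤ 2 * D + 1) (hD2 : D + 2 ≤ q) (r : ι → Y) (hr : ∀ i, r i ≠ 0) {lam : ℝ}
    (hb : CharBd r lam) (hlam : (q : ℝ) * lam ≤ 1 / 16) (σ : Y → (ρ → F) → ZMod 2) :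
    1 ≤ 160 * (q : ℝ) ^ 2 * eps F D r σ ∨
    ∃ (s : Y → ρ → F) (I : Finset ι), I.Nonempty ∧
      (1 - 1 / (40 * (q : ℝ))) * Fintype.card ι ≤ #I ∧
      (∀ i ∈ I, ∀ y, Low (q - 2 - D) fun u : F => s (y + u • r i)) ∧
      (∀ (Ω : Type) [Fintype Ω] [Nonempty Ω] (yv : Ω → Y)
        (_ : ∀ g : Y → ℝ, 𝔼 ω, g (yv ω) = 𝔼 y, g y) (cst : Ω → ρ → F) (t : Ω → ZMod 2),
        idRead φ s yv cst t - (6 + 8 * q) * eps F D r σ ≤ vRead D r σ yv cst t) ∧
      (∀ (Ω : Type) [Fintype Ω] [Nonempty Ω] (yv yv' : Ω → Y)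
        (_ : ∀ g : Y → ℝ, 𝔼 ω, g (yv ω) = 𝔼 y, g y)
        (_ : ∀ g : Y → ℝ, 𝔼 ω, g (yv' ω) = 𝔼 y, g y)
        (cst cst' : Ω → ρ → F) (t : Ω → ZMod 2),
        idRead2 φ s yv yv' cst cst' t - 2 * ((6 + 8 * q) * eps F D r σ) ≤
          vRead2 D r σ yv yv' cst cst' t) := by
  have hq2 : (2 : ℝ) ≤ q := by
    have : 2 ≤ q := by omega
    exact_mod_cast this
  have hqpos : (0 : ℝ) < q := by linarith
  have hε0 : 0 ≤ eps F D r σ := eps_nonneg' r σ
  by_cases hε : eps F D r σ ≤ 1 / (160 * (q : ℝ) ^ 2)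
  · right
    obtain ⟨b, s, I, hIne, hdist, hcard, hbI, hI⟩ :=
      ltc_structure φ hφ hq hD hD2 r hr hb hlam σ hε
    set ε := eps F D r σ with hεdef
    have hκle : 4 * (q : ℝ) * ε ≤ 1 / (40 * (q : ℝ)) := by
      have h1 : 4 * (q : ℝ) * ε ≤ 4 * (q : ℝ) * (1 / (160 * (q : ℝ) ^ 2)) :=
        mul_le_mul_of_nonneg_left hε (by positivity)
      refine h1.trans (le_of_eq ?_)
      field_simp
      norm_num
    have herrle : 2 * ((q : ℝ) - 1) * (3 * ε / q) + 2 * (4 * q * ε) ≤ (6 + 8 * q) * ε := by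
      have h1 : 2 * ((q : ℝ) - 1) * (3 * ε / q) ≤ 6 * ε := by
        rw [mul_div_assoc', div_le_iff₀ hqpos]
        nlinarith
      nlinarith
    refine ⟨s, I, hIne, ?_, hI, ?_, ?_⟩
    · refine le_trans ?_ hcard
      have : (1 - 1 / (40 * (q : ℝ))) ≤ 1 - 4 * q * ε := by linarith
      exact mul_le_mul_of_nonneg_right this (by positivity)
    · intro Ω _ _ yv hyv cst t
      have := vRead_sub_le φ hq r σ b s I hD2 hI hbI yv hyv cst t hdist hcard
      linarith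
    · intro Ω _ _ yv yv' hyv hyv' cst cst' t
      have := vRead2_sub_le φ hq r σ b s I hD2 hI hbI yv yv' hyv hyv' cst cst' t hdist hcard
      linarith
  · left
    push Not at hε
    rw [div_lt_iff₀ (by positivity)] at hε
    linarith

end

end Vale.Agent.P318.H767
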