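import Vale.Agent.P318.S.Mid
import Vale.Agent.P318.H764.CodeSound
import Vale.Agent.P318.H591.Dirs
import Vale.Agent.P318.H790.Quad
import Vale.Agent.P318.H767.Gap

/-!
# `mid_no`: soundness in the form of the cut end
-/

namespace Vale.Agent.P318.H767

open Finset
open scoped BigOperators
open Vale.Agent.P318.S

section

variable {F V ι Z K : Type*} [Field F] [Fintype F] [DecidableEq F] [CharP F 2]
  [AddCommGroup V] [Module F V] [Fintype V] [DecidableEq V] [Fintype ι] [Nonempty ι]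
  [Fintype Z] [DecidableEq Z] [Fintype K] [DecidableEq K]

theorem expect_prod' (A B : Type*) [Fintype A] [Fintype B] (f : A × B → ℝ) :
    𝔼 w : A × B, f w = 𝔼 a : A, 𝔼 b : B, f (a, b) := by
  rw [← univ_product_univ, expect_product]

theorem expect_fst {A B : Type*} [Fintype A] [Fintype B] [Nonempty B] (g : A → ℝ) :
    𝔼 ω : A × B, g ω.1 = 𝔼 a, g a := by
  rw [← univ_product_univ, expect_product]
  refine expect_congr rfl fun a _ => ?_
  exact Fintype.expect_const (g a)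

end

section

variable {F V ι Z K : Type} [Field F] [Fintype F] [DecidableEq F] [CharP F 2]
  [AddCommGroup V] [Module F V] [Fintype V] [DecidableEq V] [Fintype ι] [Nonempty ι]
  [Fintype Z] [DecidableEq Z] [Fintype K] [DecidableEq K]

theorem V1_eq (D : ℕ) (r : ι → Fin 3 → V) (σ : (Fin 3 → V) → (Comp K → F) → ZMod 2) :
    V1 D r σ = vRead D r σ (fun w : (Fin 3 → V) × (Fin 2 → F) × (Fin 2 → F) => w.1)
      (fun w => cst1 w.2.1 w.2.2) (fun _ => 0) := by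
  unfold V1 vRead
  rw [expect_prod' (Fin 3 → V)]
  refine expect_congr rfl fun y _ => ?_
  rw [expect_prod' (A := Fin 2 → F) (B := Fin 2 → F)]
  simp only [rd, add_zero]

theorem U1_eq (φ : F →+ ZMod 2) (s : (Fin 3 → V) → Comp K → F) :
    U1 φ s = idRead φ s (fun w : (Fin 3 → V) × (Fin 2 → F) × (Fin 2 → F) => w.1)
      (fun w => cst1 w.2.1 w.2.2) (fun _ => 0) := by
  unfold U1 idRead
  rw [expect_prod' (Fin 3 → V)]
  refine expect_congr rfl fun y _ => ?_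
  rw [expect_prod' (A := Fin 2 → F) (B := Fin 2 → F)]
  simp only [add_zero]

theorem V2_eq (D : ℕ) (r : ι → Fin 3 → V) (del : Z → V → F) (zf : K → V → F)
    (sys : Finset (Z × Z × Z)) (bet : Z × Z × Z → F)
    (σ : (Fin 3 → V) → (Comp K → F) → ZMod 2) :
    V2 D r del zf sys bet σ = vRead D r σ (fun w : (Fin 3 → V) × F => w.1)
      (fun w => cst2 del zf sys bet w.2 w.1) (fun _ => 0) := by
  unfold V2 vRead
  rw [expect_prod' (Fin 3 → V) F]
  simp only [rd, add_zero]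

theorem U2_eq (φ : F →+ ZMod 2) (del : Z → V → F) (zf : K → V → F)
    (sys : Finset (Z × Z × Z)) (bet : Z × Z × Z → F) (s : (Fin 3 → V) → Comp K → F) :
    U2 φ del zf sys bet s = idRead φ s (fun w : (Fin 3 → V) × F => w.1)
      (fun w => cst2 del zf sys bet w.2 w.1) (fun _ => 0) := by
  unfold U2 idRead
  rw [expect_prod' (Fin 3 → V) F]
  simp only [add_zero]

theorem V4_eq (D : ℕ) (φ : F →+ ZMod 2) (r : ι → Fin 3 → V)
    (σ : (Fin 3 → V) → (Comp K → F) → ZMod 2) :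
    V4 D φ r σ = vRead D r σ (fun w : (Fin 3 → V) × F => w.1)
      (fun w => cstE w.2 cOne) (fun w => φ w.2) := by
  unfold V4 vRead
  rw [expect_prod' (Fin 3 → V) F]
  simp only [rd]

theorem U4_eq (φ : F →+ ZMod 2) (s : (Fin 3 → V) → Comp K → F) :
    U4 φ s = idRead φ s (fun w : (Fin 3 → V) × F => w.1)
      (fun w => cstE w.2 cOne) (fun w => φ w.2) := by
  unfold U4 idRead
  rw [expect_prod' (Fin 3 → V) F]

theorem V3_eq (D : ℕ) (r : ι → Fin 3 → V) (b : Fin 3)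
    (σ : (Fin 3 → V) → (Comp K → F) → ZMod 2) :
    V3 D r b σ = vRead2 D r σ (fun w : (Fin 3 → V) × (Fin 3 → V) × F => w.1)
      (fun w => sh b w.1 w.2.1) (fun w => cstE w.2.2 (cF b)) (fun w => cstE w.2.2 (cF b))
      (fun _ => 0) := by
  unfold V3 vRead2
  rw [expect_prod' (Fin 3 → V)]
  refine expect_congr rfl fun y _ => ?_
  rw [expect_prod' (A := Fin 3 → V) (B := F)]
  simp only [rd, add_zero]

theorem U3_eq (φ : F →+ ZMod 2) (b : Fin 3) (s : (Fin 3 → V) → Comp K → F) :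
    U3 φ b s = idRead2 φ s (fun w : (Fin 3 → V) × (Fin 3 → V) × F => w.1)
      (fun w => sh b w.1 w.2.1) (fun w => cstE w.2.2 (cF b)) (fun w => cstE w.2.2 (cF b))
      (fun _ => 0) := by
  unfold U3 idRead2
  rw [expect_prod' (Fin 3 → V)]
  refine expect_congr rfl fun y _ => ?_
  rw [expect_prod' (A := Fin 3 → V) (B := F)]
  simp only [add_zero]

theorem expect_sh (b : Fin 3) (g : (Fin 3 → V) → ℝ) :
    𝔼 w : (Fin 3 → V) × (Fin 3 → V) × F, g (sh b w.1 w.2.1) = 𝔼 y, g y := by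
  rw [expect_prod' (Fin 3 → V), expect_comm]
  have : ∀ x : (Fin 3 → V) × F, (𝔼 y : Fin 3 → V, g (sh b y x.1)) = 𝔼 y, g y := by
    intro x
    unfold sh
    exact Fintype.expect_equiv (Equiv.addRight _) _ _ fun y => rfl
  simp only [this]
  exact Fintype.expect_const _

theorem char_dir3 {r : ι → V} {lam : ℝ} (h0 : 0 ≤ lam) (h : CharBd r lam) :
    CharBd (dir3 r) lam :=
  H591.charBd_pi (fun _ : Fin 3 => r) h0 fun _ => h

/-- The weights of the tests. -/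
def wts (q : ℕ) : Fin 5 → ℕ := ![160 * q ^ 2, 1, 4, 8, 4]

theorem violA_ge (φ : F →+ ZMod 2) (hφ : φ ≠ 0) {q D d t : ℕ} (hq : Fintype.card F = q)
    (hq2 : 64 ≤ q) (hDd : D + 2 + d = q) (htd : 6 * t ≤ d) (hd2 : 2 ≤ d) (h8 : 8 * d + 1 ≤ q)
    {lam : ℝ} (hlam0 : 0 ≤ lam) (hlam : lam * (1024 * (q : ℝ) ^ 5) ≤ 1)
    {pt : Z → V} {del : Z → V → F} {zf : K → V → F} {r : ι → V}
    (hG : GeoOK t lam pt del zf r) (sys : Finset (Z × Z × Z)) (bet : Z × Z × Z → F)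
    (hno : ¬ Solv sys bet) (σ : (Fin 3 → V) → (Comp K → F) → ZMod 2) :
    (1 / 2 : ℝ) * (1 - 1 / q) + 1 / 4 * (1 / q - 1 / (q : ℝ) ^ 2) ≤
      violA D φ (dir3 r) del zf sys bet (wts q) σ := by
  have hqR : (64 : ℝ) ≤ q := by exact_mod_cast hq2
  have hne : ∀ i, dir3 r i ≠ 0 := fun i h => hG.ne_zero (i 0) (congrFun h 0)
  have hq0 : (0 : ℝ) < q := by linarith
  have hq5 : (64 : ℝ) ^ 4 * q ≤ (q : ℝ) ^ 5 := by
    have : (64 : ℝ) ^ 4 ≤ (q : ℝ) ^ 4 := pow_le_pow_left₀ (by norm_num) hqR 4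
    calc (64 : ℝ) ^ 4 * q ≤ (q : ℝ) ^ 4 * q := mul_le_mul_of_nonneg_right this hq0.le
      _ = (q : ℝ) ^ 5 := by ring
  have hlam16 : (q : ℝ) * lam ≤ 1 / 16 := by
    rcases le_or_gt lam 0 with h | h
    · nlinarith
    · have : lam * (1024 * (64 ^ 4 * q)) ≤ 1 := by
        refine le_trans ?_ hlam
        exact mul_le_mul_of_nonneg_left (by linarith) h.le
      nlinarith
  have hlam' : lam ≤ 1 / 16 := by
    rcases le_or_gt lam 0 with h | h
    · linarith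
    · nlinarith
  have hε0 : 0 ≤ eps F D (dir3 r) σ := eps_nonneg' (dir3 r) σ
  have hv1 : 0 ≤ V1 D (dir3 r) σ := by rw [V1_eq]; exact vRead_nonneg _ _ _ _ _
  have hv2 : 0 ≤ V2 D (dir3 r) del zf sys bet σ := by rw [V2_eq]; exact vRead_nonneg _ _ _ _ _
  have hv4 : 0 ≤ V4 D φ (dir3 r) σ := by rw [V4_eq]; exact vRead_nonneg _ _ _ _ _
  have hv3 : ∀ b, 0 ≤ V3 D (dir3 r) b σ := fun b => by rw [V3_eq]; exact vRead2_nonneg _ _ _ _ _ _ _
  have hvle : (1 / 2 : ℝ) * (1 - 1 / q) + 1 / 4 * (1 / q - 1 / (q : ℝ) ^ 2) ≤ 1 := by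
    have h1 : 0 < 1 / (q : ℝ) := by positivity
    have h2 : 0 < 1 / (q : ℝ) ^ 2 := by positivity
    have h3 : 1 / (q : ℝ) ≤ 1 := by
      rw [div_le_one hq0]; linarith
    linarith
  have hexp : violA D φ (dir3 r) del zf sys bet (wts q) σ =
      160 * (q : ℝ) ^ 2 * eps F D (dir3 r) σ + V1 D (dir3 r) σ + 4 * V2 D (dir3 r) del zf sys bet σ +
        8 * ∑ b, V3 D (dir3 r) b σ + 4 * V4 D φ (dir3 r) σ := by
    unfold violA wts
    simp
  rw [hexp]
  have hs3 : 0 ≤ ∑ b, V3 D (dir3 r) b σ := sum_nonneg fun b _ => hv3 b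
  rcases ltc_reads φ hφ hq (by omega : q ≤ 2 * D + 1) (by omega : D + 2 ≤ q) (dir3 r) hne
    (char_dir3 hlam0 hG.char)
    hlam16 σ with h | ⟨s, I, hIne, hcard, hI, hone, htwo⟩
  · linarith
  · set ε := eps F D (dir3 r) σ with hεdef
    have hd' : q - 2 - D = d := by omega
    rw [hd'] at hI
    have hU1 : U1 φ s - (6 + 8 * q) * ε ≤ V1 D (dir3 r) σ := by
      rw [U1_eq, V1_eq]
      exact hone _ _ (fun g => expect_fst g) _ _
    have hU2 : U2 φ del zf sys bet s - (6 + 8 * q) * ε ≤ V2 D (dir3 r) del zf sys bet σ := by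
      rw [U2_eq, V2_eq]
      exact hone _ _ (fun g => expect_fst g) _ _
    have hU4 : U4 φ s - (6 + 8 * q) * ε ≤ V4 D φ (dir3 r) σ := by
      rw [U4_eq, V4_eq]
      exact hone _ _ (fun g => expect_fst g) _ _
    have hU3 : ∀ b, U3 φ b s - 2 * ((6 + 8 * q) * ε) ≤ V3 D (dir3 r) b σ := by
      intro b
      rw [U3_eq, V3_eq]
      exact htwo _ _ _ (fun g => expect_fst g) (fun g => expect_sh b g) _ _ _
    have hs := H764.code_sound φ hφ hq hG (by omega : 3 * t ≤ d) hd2 h8 hlam' sys bet hno s I hIne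
      hcard (by
        rw [div_le_div_iff₀ (by positivity) (by norm_num)]
        linarith) hI
    have hbig : 57 * ((6 + 8 * (q : ℝ)) * ε) ≤ 160 * (q : ℝ) ^ 2 * ε := by
      have : 57 * (6 + 8 * (q : ℝ)) ≤ 160 * (q : ℝ) ^ 2 := by nlinarith
      nlinarith
    have herr0 : 0 ≤ (6 + 8 * (q : ℝ)) * ε := by positivity
    rcases hs with h | h | ⟨b, h⟩ | h
    · linarith
    · linarith
    · have h3 : 1 / 8 - 2 * ((6 + 8 * (q : ℝ)) * ε) ≤ V3 D (dir3 r) b σ := by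
        have := hU3 b; linarith
      have h3' : V3 D (dir3 r) b σ ≤ ∑ b, V3 D (dir3 r) b σ :=
        single_le_sum (f := fun b => V3 D (dir3 r) b σ) (fun b _ => hv3 b) (mem_univ b)
      linarith
    · linarith

end

/-- Soundness in the form of the cut end, explicit constants. -/
theorem mid_no_explicit {F V ι Z K : Type} [Field F] [Fintype F] [DecidableEq F] [CharP F 2]
    [AddCommGroup V] [Module F V] [Fintype V] [DecidableEq V] [Fintype ι] [Nonempty ι]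
    [Fintype Z] [DecidableEq Z] [Fintype K] [DecidableEq K]
    (φ : F →+ ZMod 2) (hφ : φ ≠ 0) {q D d t : ℕ} (hq2 : 64 ≤ q) (hq : Fintype.card F = q)
    (hDd : D + 2 + d = q) (htd : 6 * t ≤ d) (hd2 : 2 ≤ d) (h8 : 8 * d + 1 ≤ q)
    {lam : ℝ} (hlam0 : 0 ≤ lam) (hlam : lam * (1024 * q ^ 5 : ℕ) ≤ 1)
    {pt : Z → V} {del : Z → V → F} {zf : K → V → F} {r : ι → V}
    (hG : GeoOK t lam pt del zf r) (sys : Finset (Z × Z × Z)) (bet : Z × Z × Z → F)
    (hno : ¬ Solv sys bet) (σ : (Fin 3 → V) → (Comp K → F) → ZMod 2) :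
    wA q (wts q) * ((1 - mean σ ^ 2) / 4) + wts q 1 * ((1 / 2 : ℝ) * (1 - 1 / q)) +
        wA q (wts q) / (1024 * q ^ 5 : ℕ) ≤
      quadA D (dir3 r) del zf sys bet (wts q) σ + violA D φ (dir3 r) del zf sys bet (wts q) σ := by
  push_cast at hlam ⊢
  have hqR : (64 : ℝ) ≤ q := by exact_mod_cast hq2
  have hq0 : (0 : ℝ) < q := by linarith
  have h1 := violA_ge φ hφ hq hq2 hDd htd hd2 h8 hlam0 hlam hG sys bet hno σ
  have h2 := H790.quadA_ge hq (by omega : 1 ≤ D) (dir3 r) hlam0 (char_dir3 hlam0 hG.char) del zf sys bet (wts q) σ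
  -- the total weight
  have hw : wA q (wts q) ≤ 161 * (q : ℝ) ^ 4 := by
    have e : wA q (wts q) = 160 * (q : ℝ) ^ 2 * (q * (q - 1)) +
        (1 + 4 + 4) * ((2 * (q - 1)) * (2 * (q - 1) - 1)) +
        3 * 8 * ((4 * (q - 1)) * (4 * (q - 1) - 1)) := by
      unfold wA wts
      simp
    rw [e]
    have h3 : (64 : ℝ) ^ 2 * q ^ 2 ≤ (q : ℝ) ^ 4 := by
      have : (64 : ℝ) ^ 2 ≤ (q : ℝ) ^ 2 := pow_le_pow_left₀ (by norm_num) hqR 2
      nlinarith [sq_nonneg (q : ℝ)]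
    nlinarith
  have hw0 : 0 ≤ wA q (wts q) := by
    unfold wA
    have h3 : (0 : ℝ) ≤ q - 1 := by linarith
    have h4 : (0 : ℝ) ≤ 2 * ((q : ℝ) - 1) - 1 := by linarith
    have h5 : (0 : ℝ) ≤ 4 * ((q : ℝ) - 1) - 1 := by linarith
    positivity
  -- the error terms
  have herr : wA q (wts q) / (1024 * (q : ℝ) ^ 5) + wA q (wts q) / 4 * lam ≤
      1 / 4 * (1 / q - 1 / (q : ℝ) ^ 2) := by
    have h5 : lam ≤ 1 / (1024 * (q : ℝ) ^ 5) := by
      rw [le_div_iff₀ (by positivity)]; exact hlam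
    have h6 : wA q (wts q) / 4 * lam ≤ wA q (wts q) / 4 * (1 / (1024 * (q : ℝ) ^ 5)) :=
      mul_le_mul_of_nonneg_left h5 (by positivity)
    have h7 : wA q (wts q) / (1024 * (q : ℝ) ^ 5) ≤ 161 / (1024 * q) := by
      rw [div_le_div_iff₀ (by positivity) (by positivity)]
      nlinarith
    have h8' : wA q (wts q) / 4 * (1 / (1024 * (q : ℝ) ^ 5)) =
        wA q (wts q) / (1024 * (q : ℝ) ^ 5) / 4 := by ring
    have h9 : 161 / (1024 * (q : ℝ)) * (5 / 4) ≤ 1 / 4 * (1 / q - 1 / (q : ℝ) ^ 2) := by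
      have e1 : 1 / 4 * (1 / (q : ℝ) - 1 / (q : ℝ) ^ 2) = (q - 1) / (4 * (q : ℝ) ^ 2) := by
        field_simp
      rw [e1]
      have e2 : 161 / (1024 * (q : ℝ)) * (5 / 4) = 805 / (4096 * q) := by
        field_simp
        norm_num
      rw [e2, div_le_div_iff₀ (by positivity) (by positivity)]
      nlinarith
    linarith
  have hm1 : ((wts q 1 : ℕ) : ℝ) = 1 := by simp [wts]
  rw [hm1]
  have e3 : wA q (wts q) / 4 * (1 - mean σ ^ 2 - lam) =
      wA q (wts q) * ((1 - mean σ ^ 2) / 4) - wA q (wts q) / 4 * lam := by ring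
  rw [e3] at h2
  linarith

/-- Soundness in the form of the cut end. -/
theorem mid_no (q : ℕ) (hq2 : 64 ≤ q) :
    ∃ (m : Fin 5 → ℕ) (G0 : ℕ), 0 < G0 ∧ (∀ j, 0 < m j) ∧
      ∀ (F V ι Z K : Type) [Field F] [Fintype F] [DecidableEq F] [CharP F 2]
        [AddCommGroup V] [Module F V] [Fintype V] [DecidableEq V] [Fintype ι] [Nonempty ι]
        [Fintype Z] [DecidableEq Z] [Fintype K] [DecidableEq K]
        (φ : F →+ ZMod 2) (_ : φ ≠ 0) (_ : Fintype.card F = q) (D d t : ℕ)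
        (_ : D + 2 + d = q) (_ : 6 * t ≤ d) (_ : 2 ≤ d) (_ : 8 * d + 1 ≤ q)
        (lam : ℝ) (_ : 0 ≤ lam) (_ : lam * G0 ≤ 1)
        (pt : Z → V) (del : Z → V → F) (zf : K → V → F) (r : ι → V)
        (_ : GeoOK t lam pt del zf r) (sys : Finset (Z × Z × Z)) (bet : Z × Z × Z → F)
        (_ : ¬ Solv sys bet) (σ : (Fin 3 → V) → (Comp K → F) → ZMod 2),
        wA q m * ((1 - mean σ ^ 2) / 4) + m 1 * ((1 / 2 : ℝ) * (1 - 1 / q)) + wA q m / G0 ≤
          quadA D (dir3 r) del zf sys bet m σ + violA D φ (dir3 r) del zf sys bet m σ := by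
  refine ⟨wts q, 1024 * q ^ 5, by positivity, ?_, ?_⟩
  · intro j
    have hq0 : 0 < q := by omega
    fin_cases j <;> simp [wts, hq0]
  · intro F V ι Z K _ _ _ _ _ _ _ _ _ _ _ _ _ _ φ hφ hq D d t hDd htd hd2 h8 lam hlam0 hlam pt del
      zf r hG sys bet hno σ
    exact mid_no_explicit φ hφ hq2 hq hDd htd hd2 h8 hlam0 hlam hG sys bet hno σ

end Vale.Agent.P318.H767
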