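import Vale.Agent.P318.S.Mid
import Vale.Agent.P318.H454.Honest
import Vale.Agent.P318.H790.Quad

/-!
# `mid_yes`: completeness in the form of the cut end
-/

namespace Vale.Agent.P318.H767

open Finset
open scoped BigOperators
open Vale.Agent.P318.S

variable {F V ι Z K : Type*} [Field F] [Fintype F] [DecidableEq F] [CharP F 2]
  [AddCommGroup V] [Module F V] [Fintype V] [DecidableEq V] [Fintype ι] [Nonempty ι]
  [Fintype Z] [DecidableEq Z] [Fintype K] [DecidableEq K]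

/-- Completeness in the form of the cut end. -/
theorem mid_yes (φ : F →+ ZMod 2) (hφ : φ ≠ 0) {q D t : ℕ} (hq : Fintype.card F = q)
    {lam : ℝ} {pt : Z → V} {del : Z → V → F} {zf : K → V → F} {r : ι → V}
    (hG : GeoOK t lam pt del zf r) (hD0 : 1 ≤ D) (hD : D + 2 + 6 * t ≤ q)
    (sys : Finset (Z × Z × Z)) (bet : Z × Z × Z → F) (hyes : Solv1 sys bet) (m : Fin 5 → ℕ) :
    ∃ σ : (Fin 3 → V) → (Comp K → F) → ZMod 2, Bal σ ∧
      quadA D (dir3 r) del zf sys bet m σ = wA q m / 4 ∧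
      violA D φ (dir3 r) del zf sys bet m σ = m 1 * ((1 / 2 : ℝ) * (1 - 1 / q)) := by
  obtain ⟨σ, hσ, h0, h1, h2, h3, h4⟩ := H454.honest φ hφ hq hG hD sys bet hyes
  refine ⟨σ, hσ, H790.quadA_bal hq hD0 (dir3 r) del zf sys bet m σ hσ, ?_⟩
  unfold violA
  rw [h0, h1, h2, h4]
  simp [h3]

end Vale.Agent.P318.H767
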