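import Mathlib

/-!
# Choice of the constants `q = 2 ^ s` and `t`
-/

namespace Vale.Agent.P318.H767

open Filter

/-- For every `θ < 1` there are `q = 2 ^ s`, with `s0 ∣ s`, and `t` such that `48 t ≤ q - 1` and
`max θ (1 / (q - 1)) ^ t` is at most `1 / (8192 q ^ 5)`. -/
theorem exists_params (θ : ℝ) (h1 : θ < 1) (s0 N : ℕ) (hs0 : 1 ≤ s0) :
    ∃ s t : ℕ, s0 ∣ s ∧ N ≤ s ∧ 1 ≤ s ∧ 1 ≤ t ∧ 48 * t ≤ 2 ^ s - 1 ∧
      (max θ (1 / ((2 : ℝ) ^ s - 1))) ^ t ≤ 1 / (8192 * ((2 : ℝ) ^ s) ^ 5) := by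
  set μ : ℝ := max θ (1 / 2) with hμ
  have hμ1 : μ < 1 := max_lt h1 (by norm_num)
  have hμ0 : 0 < μ := lt_of_lt_of_le (by norm_num) (le_max_right _ _)
  have hlim := tendsto_pow_const_mul_const_pow_of_abs_lt_one 5 (r := μ)
    (by rw [abs_of_pos hμ0]; exact hμ1)
  have hev : ∀ᶠ t : ℕ in atTop, ((t : ℝ) ^ 5 * μ ^ t) < 1 / (8192 * 97 ^ 5) :=
    hlim.eventually (gt_mem_nhds (by positivity))
  obtain ⟨T, hT⟩ := eventually_atTop.1 hev
  -- choose `s`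
  set j : ℕ := 48 * (T + 1) + 1 + N with hj
  refine ⟨s0 * j, (2 ^ (s0 * j) - 1) / 48, dvd_mul_right _ _, ?_, ?_, ?_, Nat.mul_div_le _ _, ?_⟩
  · nlinarith
  · nlinarith
  · have : 48 ≤ 2 ^ (s0 * j) - 1 := by
      have h2 : s0 * j < 2 ^ (s0 * j) := Nat.lt_two_pow_self
      have h3 : j ≤ s0 * j := Nat.le_mul_of_pos_left _ hs0
      omega
    omega
  · set q : ℕ := 2 ^ (s0 * j) with hq
    set t : ℕ := (q - 1) / 48 with ht
    have h2 : s0 * j < q := Nat.lt_two_pow_self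
    have h3 : j ≤ s0 * j := Nat.le_mul_of_pos_left _ hs0
    have htT : T ≤ t := by omega
    have ht1 : 1 ≤ t := by omega
    have hqt : q ≤ 97 * t := by omega
    have hqR : ((2 : ℝ) ^ (s0 * j)) = (q : ℝ) := by rw [hq]; push_cast; rfl
    rw [hqR]
    have hq49 : (49 : ℝ) ≤ q := by
      have : 49 ≤ q := by omega
      exact_mod_cast this
    have hmax : max θ (1 / ((q : ℝ) - 1)) ≤ μ := by
      refine max_le (le_max_left _ _) (le_trans ?_ (le_max_right _ _))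
      rw [div_le_div_iff₀ (by linarith) (by norm_num)]
      linarith
    have hmax0 : 0 ≤ max θ (1 / ((q : ℝ) - 1)) := by
      refine le_trans ?_ (le_max_right _ _)
      have : (0 : ℝ) < (q : ℝ) - 1 := by linarith
      positivity
    have hb := hT t htT
    have hqt' : (q : ℝ) ≤ 97 * t := by exact_mod_cast hqt
    have hq5 : (q : ℝ) ^ 5 ≤ 97 ^ 5 * (t : ℝ) ^ 5 := by
      rw [← mul_pow]
      exact pow_le_pow_left₀ (by linarith) hqt' 5
    refine (pow_le_pow_left₀ hmax0 hmax t).trans ?_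
    rw [le_div_iff₀ (by positivity)]
    have hμt : 0 < μ ^ t := by positivity
    calc μ ^ t * (8192 * (q : ℝ) ^ 5) ≤ μ ^ t * (8192 * (97 ^ 5 * (t : ℝ) ^ 5)) := by gcongr
      _ = (8192 * 97 ^ 5) * ((t : ℝ) ^ 5 * μ ^ t) := by ring
      _ ≤ (8192 * 97 ^ 5) * (1 / (8192 * 97 ^ 5)) := by gcongr
      _ = 1 := by norm_num

end Vale.Agent.P318.H767
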